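import Vale.Agent.P227.Local.Main

/-!
The local logarithmic Brunn-Minkowski inequality at every polytope with `n` commuting linear
reflection symmetries (a linear image of an unconditional polytope), against arbitrary even
perturbations and arbitrary origin-symmetric comparison bodies.
-/

namespace Vale.Agent.Results.P227.LocalAtUnconditional

open Set MeasureTheory Matrix Filter Topology
open Vale.Agent.P227.Local (flp poly nv exists_sys local_coord pert)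

theorem result (n : ℕ) (T : (Fin n → ℝ) ≃ₗ[ℝ] (Fin n → ℝ)) (A : Finset (Fin n → ℝ))
    (K : Set (Fin n → ℝ)) (hK : K = {x | ∀ a ∈ A, x ⬝ᵥ a ≤ 1}) (hKb : Bornology.IsBounded K)
    (hsym : ∀ i, ∀ x ∈ K, T.symm (Function.update (T x) i (-(T x i))) ∈ K) :
    (0 < volume K ∧ volume K < ⊤) ∧
    (∀ g : (Fin n → ℝ) → ℝ, (∀ u, g (-u) = g u) → ∀ ε : ℝ, 0 < ε → ∃ δ : ℝ, 0 < δ ∧
      ∀ t : ℝ, |t| < δ →
        volume {x : Fin n → ℝ | ∀ u : Fin n → ℝ, u ⬝ᵥ u = 1 →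
            x ⬝ᵥ u ≤ sSup ((fun y => y ⬝ᵥ u) '' K) * Real.exp (t * g u)} *
          volume {x : Fin n → ℝ | ∀ u : Fin n → ℝ, u ⬝ᵥ u = 1 →
            x ⬝ᵥ u ≤ sSup ((fun y => y ⬝ᵥ u) '' K) * Real.exp (-t * g u)}
          ≤ ENNReal.ofReal (Real.exp (ε * t ^ 2)) * volume K ^ 2) ∧
    (∀ L : Set (Fin n → ℝ), IsCompact L → (∀ x ∈ L, -x ∈ L) → (interior L).Nonempty →
      ∀ ε : ℝ, 0 < ε → ∃ δ : ℝ, 0 < δ ∧ ∀ t : ℝ, |t| < δ →
        volume {x : Fin n → ℝ | ∀ u : Fin n → ℝ, u ⬝ᵥ u = 1 →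
            x ⬝ᵥ u ≤ sSup ((fun y => y ⬝ᵥ u) '' K) ^ (1 - t) *
              sSup ((fun y => y ⬝ᵥ u) '' L) ^ t} *
          volume {x : Fin n → ℝ | ∀ u : Fin n → ℝ, u ⬝ᵥ u = 1 →
            x ⬝ᵥ u ≤ sSup ((fun y => y ⬝ᵥ u) '' K) ^ (1 - -t) *
              sSup ((fun y => y ⬝ᵥ u) '' L) ^ (-t)}
          ≤ ENNReal.ofReal (Real.exp (ε * t ^ 2)) * volume K ^ 2) := by
  classical
  set M := LinearMap.toMatrix' (T : (Fin n → ℝ) →ₗ[ℝ] (Fin n → ℝ)) with hM
  set N := LinearMap.toMatrix' (T.symm : (Fin n → ℝ) →ₗ[ℝ] (Fin n → ℝ)) with hN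
  have eM : ∀ y a, y ⬝ᵥ (Mᵀ *ᵥ a) = T y ⬝ᵥ a := fun y a => by
    rw [dotProduct_mulVec, vecMul_transpose, hM, LinearMap.toMatrix'_mulVec]
    rfl
  have eN : ∀ y a, y ⬝ᵥ (Nᵀ *ᵥ a) = T.symm y ⬝ᵥ a := fun y a => by
    rw [dotProduct_mulVec, vecMul_transpose, hN, LinearMap.toMatrix'_mulVec]
    rfl
  set A' := A.image (fun a => Nᵀ *ᵥ a) with hA'
  set K' := T '' K with hK'
  have hK'eq : K' = {x | ∀ a ∈ A', x ⬝ᵥ a ≤ 1} := by
    ext x
    simp only [hK', hA', Finset.forall_mem_image, mem_ofPred_eq, eN]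
    constructor
    · rintro ⟨y, hy, rfl⟩ a ha
      rw [hK] at hy
      simpa using hy a ha
    · intro h
      exact ⟨T.symm x, by rw [hK]; exact fun a ha => h ha, T.apply_symm_apply x⟩
  have hK'b : Bornology.IsBounded K' :=
    (T.toLinearMap.toContinuousLinearMap.lipschitz.isBounded_image hKb)
  have hflp : ∀ i, ∀ x ∈ K', flp i x ∈ K' := by
    rintro i _ ⟨y, hy, rfl⟩
    exact ⟨_, hsym i y hy, T.apply_symm_apply _⟩
  set d := ENNReal.ofReal |LinearMap.det (T : (Fin n → ℝ) →ₗ[ℝ] (Fin n → ℝ))| with hd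
  have hd0 : d ≠ 0 := by
    rw [hd, ne_eq, ENNReal.ofReal_eq_zero, not_le, abs_pos]
    exact T.isUnit_det'.ne_zero
  have hv : ∀ P : Set (Fin n → ℝ), volume (T '' P) = d * volume P := fun P =>
    Measure.addHaar_image_linearMap volume (T : (Fin n → ℝ) →ₗ[ℝ] (Fin n → ℝ)) P
  obtain ⟨B, hB, hBK⟩ := exists_sys A' hK'eq hK'b hflp
  have hKneg : ∀ x ∈ K, -x ∈ K := by
    intro x hx
    have h1 : T x ∈ poly (nv B) (fun _ => 1) := hBK ▸ mem_image_of_mem T hx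
    have h2 : T (-x) ∈ K' := by
      rw [← hBK, map_neg]
      intro b
      have := h1 ⟨-b, hB.neg b b.2⟩
      simp only [nv, dotProduct_neg] at this
      simpa [neg_dotProduct] using this
    obtain ⟨y, hy, he⟩ := h2
    exact T.injective he ▸ hy
  have hKball : ∃ r : ℝ, 0 < r ∧ Metric.closedBall 0 r ⊆ K := by
    have hU : IsOpen (⋂ a ∈ A, {x : Fin n → ℝ | x ⬝ᵥ a < 1}) :=
      isOpen_biInter_finset fun a _ => isOpen_lt
        (show Continuous fun x : Fin n → ℝ => x ⬝ᵥ a by unfold dotProduct; fun_prop) continuous_const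
    obtain ⟨r, hr, hsub⟩ := Metric.nhds_basis_closedBall.mem_iff.1
      (hU.mem_nhds (x := 0) (by simp))
    refine ⟨r, hr, fun x hx => ?_⟩
    rw [hK]
    exact fun a ha => le_of_lt (mem_iInter₂.1 (hsub hx) a ha :)
  have hvol : 0 < volume K ∧ volume K < ⊤ := by
    obtain ⟨r, hr, hsub⟩ := hKball
    exact ⟨(Metric.measure_closedBall_pos volume 0 hr).trans_le (measure_mono hsub),
      hKb.measure_lt_top⟩
  have gen : ∀ g : (Fin n → ℝ) → ℝ, (∀ u, g (-u) = g u) → ∀ ε : ℝ, 0 < ε → ∃ δ : ℝ, 0 < δ ∧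
      ∀ t : ℝ, |t| < δ →
        volume {x : Fin n → ℝ | ∀ u : Fin n → ℝ, u ⬝ᵥ u = 1 →
            x ⬝ᵥ u ≤ sSup ((fun y => y ⬝ᵥ u) '' K) * Real.exp (t * g u)} *
          volume {x : Fin n → ℝ | ∀ u : Fin n → ℝ, u ⬝ᵥ u = 1 →
            x ⬝ᵥ u ≤ sSup ((fun y => y ⬝ᵥ u) '' K) * Real.exp (-t * g u)}
          ≤ ENNReal.ofReal (Real.exp (ε * t ^ 2)) * volume K ^ 2 := by
    intro g hg ε hε
    set g' : (Fin n → ℝ) → ℝ :=
      fun a => g ((Real.sqrt ((Mᵀ *ᵥ a) ⬝ᵥ (Mᵀ *ᵥ a)))⁻¹ • (Mᵀ *ᵥ a)) with hg'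
    have hg'e : ∀ a, g' (-a) = g' a := fun a => by
      simp only [hg', mulVec_neg, neg_dotProduct, dotProduct_neg, neg_neg, smul_neg, hg]
    set W : ℝ → Set (Fin n → ℝ) := fun s => {x | ∀ u : Fin n → ℝ, u ⬝ᵥ u = 1 →
      x ⬝ᵥ u ≤ sSup ((fun y => y ⬝ᵥ u) '' K) * Real.exp (s * g u)} with hW
    have hsub : ∀ s, T '' W s ⊆ pert K' g' s := by
      rintro s _ ⟨w, hw, rfl⟩ a ha hva
      set b := Mᵀ *ᵥ a with hb
      set r := Real.sqrt (b ⬝ᵥ b) with hr
      have hb0 : b ≠ 0 := fun h => ha (dotProduct_self_eq_zero.1 (by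
        have := eM (T.symm a) a
        rw [← hb, h, dotProduct_zero, T.apply_symm_apply] at this
        exact this.symm))
      have hbb : 0 < b ⬝ᵥ b :=
        (dotProduct_self_star_nonneg b).lt_of_ne fun h => hb0 (dotProduct_self_eq_zero.1 h.symm)
      have hr0 : 0 < r := Real.sqrt_pos.2 hbb
      have hu : (r⁻¹ • b) ⬝ᵥ (r⁻¹ • b) = 1 := by
        simp only [smul_dotProduct, dotProduct_smul, smul_eq_mul]
        rw [← Real.mul_self_sqrt hbb.le, ← hr]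
        field_simp
      have h1 := hw _ hu
      have h2 : sSup ((fun y => y ⬝ᵥ (r⁻¹ • b)) '' K) ≤ r⁻¹ := by
        refine Real.sSup_le ?_ (by positivity)
        rintro _ ⟨y, hy, rfl⟩
        simp only [dotProduct_smul, smul_eq_mul, hb, eM]
        exact mul_le_of_le_one_right (by positivity) (hva _ (mem_image_of_mem T hy))
      have h3 := h1.trans (mul_le_mul_of_nonneg_right h2 (Real.exp_pos _).le)
      rw [dotProduct_smul, smul_eq_mul, hb, eM] at h3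
      exact le_of_mul_le_mul_left h3 (inv_pos.2 hr0)
    obtain ⟨δ, hδ, h⟩ := Metric.eventually_nhds_iff.1
      (local_coord A' hK'eq hK'b hflp g' hg'e hε)
    refine ⟨δ, hδ, fun t ht => ?_⟩
    have h' := (mul_le_mul' (measure_mono (hsub t)) (measure_mono (hsub (-t)))).trans
      (h (by simpa [Real.dist_eq] using ht))
    rw [hK', hv, hv, hv] at h'
    refine (ENNReal.mul_le_mul_iff_right (pow_ne_zero 2 hd0)
      (ENNReal.pow_ne_top ENNReal.ofReal_ne_top)).1 ?_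
    calc d ^ 2 * (volume (W t) * volume (W (-t))) = d * volume (W t) * (d * volume (W (-t))) := by
          ring
      _ ≤ _ := h'
      _ = _ := by ring
  refine ⟨hvol, gen, fun L hL hLneg hLint ε hε => ?_⟩
  set hs : Set (Fin n → ℝ) → (Fin n → ℝ) → ℝ := fun P u => sSup ((fun y => y ⬝ᵥ u) '' P) with hhs
  have even : ∀ P : Set (Fin n → ℝ), (∀ x ∈ P, -x ∈ P) → ∀ u, hs P (-u) = hs P u := by
    intro P hP u
    simp only [hhs]
    congr 1
    ext s
    simp only [mem_image, dotProduct_neg]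
    constructor
    · rintro ⟨y, hy, rfl⟩; exact ⟨-y, hP y hy, neg_dotProduct y u⟩
    · rintro ⟨y, hy, rfl⟩; exact ⟨-y, hP y hy, by rw [neg_dotProduct, neg_neg]⟩
  have pos : ∀ P : Set (Fin n → ℝ), Bornology.IsBounded P → (∀ x ∈ P, -x ∈ P) →
      (interior P).Nonempty → ∀ u, u ⬝ᵥ u = 1 → 0 < hs P u := by
    intro P hP hneg ⟨x, hx⟩ u hu
    obtain ⟨s, hs0, hball⟩ := Metric.nhds_basis_closedBall.mem_iff.1 (mem_interior_iff_mem_nhds.1 hx)
    obtain ⟨c, hc, hcu⟩ : ∃ c : ℝ, 0 < c ∧ ‖c • u‖ ≤ s := ⟨s / (‖u‖ + 1), by positivity, by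
      rw [norm_smul, Real.norm_eq_abs, abs_of_pos (by positivity), div_mul_eq_mul_div,
        div_le_iff₀ (by positivity)]
      nlinarith [norm_nonneg u]⟩
    have h1 : x + c • u ∈ P := hball (by simpa [Metric.mem_closedBall, dist_eq_norm] using hcu)
    have h2 : -(x - c • u) ∈ P := hneg _ (hball (by
      simpa [Metric.mem_closedBall, dist_eq_norm, norm_neg] using hcu))
    have hbdd : BddAbove ((fun y => y ⬝ᵥ u) '' P) :=
      ((hP.isCompact_closure.image (show Continuous fun y : Fin n → ℝ => y ⬝ᵥ u by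
        unfold dotProduct; fun_prop)).bddAbove).mono (image_mono subset_closure)
    have e1 : (x + c • u) ⬝ᵥ u ≤ hs P u := le_csSup hbdd (mem_image_of_mem (fun y => y ⬝ᵥ u) h1)
    have e2 : (-(x - c • u)) ⬝ᵥ u ≤ hs P u := le_csSup hbdd (mem_image_of_mem (fun y => y ⬝ᵥ u) h2)
    simp only [add_dotProduct, neg_dotProduct, sub_dotProduct, smul_dotProduct, smul_eq_mul,
      hu] at e1 e2
    linarith
  obtain ⟨r, hr, hsub⟩ := hKball
  have hKint : (interior K).Nonempty :=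
    ⟨0, mem_interior_iff_mem_nhds.2 (mem_of_superset (Metric.closedBall_mem_nhds 0 hr) hsub)⟩
  obtain ⟨δ, hδ, h⟩ := gen (fun u => Real.log (hs L u / hs K u))
    (fun u => by rw [even L hLneg, even K hKneg]) ε hε
  refine ⟨δ, hδ, fun t ht => le_trans (le_of_eq ?_) (h t ht)⟩
  have e : ∀ s : ℝ, ∀ u : Fin n → ℝ, u ⬝ᵥ u = 1 → hs K u ^ (1 - s) * hs L u ^ s =
      hs K u * Real.exp (s * Real.log (hs L u / hs K u)) := by
    intro s u hu
    have p1 := pos K hKb hKneg hKint u hu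
    have p2 := pos L hL.isBounded hLneg hLint u hu
    rw [Real.rpow_def_of_pos p1, Real.rpow_def_of_pos p2, ← Real.exp_add,
      Real.log_div p2.ne' p1.ne']
    conv_rhs => arg 1; rw [← Real.exp_log p1]
    rw [← Real.exp_add]
    congr 1
    ring
  congr 2 <;> ext x <;> refine forall₂_congr fun u hu => ?_
  · exact Iff.of_eq (congrArg (x ⬝ᵥ u ≤ ·) (e t u hu))
  · exact Iff.of_eq (congrArg (x ⬝ᵥ u ≤ ·) (e (-t) u hu))

end Vale.Agent.Results.P227.LocalAtUnconditional
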