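import Vale.Agent.P227.Main

/-!
The logarithmic Brunn-Minkowski inequality for origin-symmetric pairs in `ℝ^n` that share `n - 2`
commuting linear reflection symmetries.
-/

namespace Vale.Agent.Results.P227.ReflectionSymmetricPairs

open Set MeasureTheory Matrix

theorem result (n : ℕ) (T : (Fin n → ℝ) ≃ₗ[ℝ] (Fin n → ℝ)) (S : Finset (Fin n))
    (hS : n ≤ S.card + 2) (K L : Set (Fin n → ℝ))
    (hK : IsCompact K) (hL : IsCompact L) (sK : ∀ x ∈ K, -x ∈ K) (sL : ∀ x ∈ L, -x ∈ L)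
    (fK : ∀ i ∈ S, ∀ x ∈ K, T.symm (Function.update (T x) i (-(T x i))) ∈ K)
    (fL : ∀ i ∈ S, ∀ x ∈ L, T.symm (Function.update (T x) i (-(T x i))) ∈ L)
    (l : ℝ) (hl0 : 0 < l) (hl1 : l < 1) :
    volume K ^ (1 - l) * volume L ^ l ≤
      volume {x : Fin n → ℝ | ∀ u : Fin n → ℝ, u ⬝ᵥ u = 1 →
        x ⬝ᵥ u ≤ sSup ((fun y => y ⬝ᵥ u) '' K) ^ (1 - l) *
          sSup ((fun y => y ⬝ᵥ u) '' L) ^ l} := by
  set d := ENNReal.ofReal |LinearMap.det (T : (Fin n → ℝ) →ₗ[ℝ] (Fin n → ℝ))| with hd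
  have hd0 : d ≠ 0 := by
    rw [hd, ne_eq, ENNReal.ofReal_eq_zero, not_le, abs_pos]
    exact T.isUnit_det'.ne_zero
  have good : ∀ P : Set (Fin n → ℝ), IsCompact P → (∀ x ∈ P, -x ∈ P) →
      (∀ i ∈ S, ∀ x ∈ P, T.symm (Function.update (T x) i (-(T x i))) ∈ P) →
      Vale.Agent.P227.Good S (T '' P) := by
    refine fun P hP sP fP => ⟨hP.image T.toLinearMap.continuous_of_finiteDimensional, ?_, ?_⟩
    · rintro _ ⟨x, hx, rfl⟩
      exact ⟨-x, sP x hx, map_neg T x⟩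
    · rintro i hi _ ⟨x, hx, rfl⟩
      exact ⟨_, fP i hi x hx, T.apply_symm_apply _⟩
  have h := Vale.Agent.P227.logBM_reflections hl0 hl1 n S hS _ _ (good K hK sK fK) (good L hL sL fL)
  have hv : ∀ P : Set (Fin n → ℝ), volume (T '' P) = d * volume P := fun P =>
    Measure.addHaar_image_linearMap volume (T : (Fin n → ℝ) →ₗ[ℝ] (Fin n → ℝ)) P
  set W := {x : Fin n → ℝ | ∀ u : Fin n → ℝ, u ⬝ᵥ u = 1 →
    x ⬝ᵥ u ≤ sSup ((fun y => y ⬝ᵥ u) '' K) ^ (1 - l) * sSup ((fun y => y ⬝ᵥ u) '' L) ^ l} with hW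
  have hsub : Vale.Agent.P227.logBody (T '' K) (T '' L) l ⊆ T '' W := by
    intro x hx
    refine ⟨T.symm x, fun u _ => ?_, T.apply_symm_apply x⟩
    set N := LinearMap.toMatrix' (T.symm : (Fin n → ℝ) →ₗ[ℝ] (Fin n → ℝ)) with hN
    have e : ∀ y, y ⬝ᵥ (Nᵀ *ᵥ u) = T.symm y ⬝ᵥ u := fun y => by
      rw [dotProduct_mulVec, vecMul_transpose, hN, LinearMap.toMatrix'_mulVec]
      rfl
    have := hx (Nᵀ *ᵥ u)
    simpa [Vale.Agent.P227.supp, image_image, e] using this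
  have h' := h.trans (measure_mono hsub)
  rw [hv, hv, hv, ENNReal.mul_rpow_of_nonneg _ _ (by linarith : (0:ℝ) ≤ 1 - l),
    ENNReal.mul_rpow_of_nonneg _ _ hl0.le, mul_mul_mul_comm,
    ← ENNReal.rpow_add_of_nonneg _ _ (by linarith : (0:ℝ) ≤ 1 - l) hl0.le, sub_add_cancel,
    ENNReal.rpow_one] at h'
  exact (ENNReal.mul_le_mul_iff_right hd0 ENNReal.ofReal_ne_top).1 h'

end Vale.Agent.Results.P227.ReflectionSymmetricPairs
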